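import Vale.Agent.P235.H830.QDefs

/-! # [GEO]: from a block of the grid to an arc of another block, avoiding two vertices -/

namespace Vale.Agent.P235.H452

open SimpleGraph Vale.Agent.P235.H134 Vale.Agent.P235.H56 Vale.Agent.P235.H141
open Vale.Agent.P235.H830

section
variable {n : ℕ}

theorem adj_hor {i : Fin n} {a b : Fin n} (h : a.val + 1 = b.val) : (grid n).Adj (i, a) (i, b) := by
  rw [grid, boxProd_adj]
  right
  exact ⟨pathGraph_adj.2 (Or.inl h), rfl⟩

theorem adj_ver {i : Fin n} {a b : Fin n} (h : a.val + 1 = b.val) : (grid n).Adj (a, i) (b, i) := by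
  rw [grid, boxProd_adj]
  left
  exact ⟨pathGraph_adj.2 (Or.inl h), rfl⟩

/-- reachability inside a set -/
def Rch (Z : Set (Fin n × Fin n)) (x y : Fin n × Fin n) : Prop :=
  ∃ (hx : x ∈ Z) (hy : y ∈ Z), ((grid n).induce Z).Reachable ⟨x, hx⟩ ⟨y, hy⟩

theorem Rch.symm {Z : Set (Fin n × Fin n)} {x y} (h : Rch Z x y) : Rch Z y x := by
  obtain ⟨hx, hy, h⟩ := h
  exact ⟨hy, hx, h.symm⟩

theorem Rch.trans {Z : Set (Fin n × Fin n)} {x y z} (h : Rch Z x y) (h' : Rch Z y z) :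
    Rch Z x z := by
  obtain ⟨hx, hy, h⟩ := h
  obtain ⟨hy', hz, h'⟩ := h'
  exact ⟨hx, hz, h.trans h'⟩

theorem hor_aux (Z : Set (Fin n × Fin n)) (i : Fin n) (d : ℕ) : ∀ a b : Fin n,
    a.val + d = b.val → (∀ t : Fin n, a.val ≤ t.val → t.val ≤ b.val → (i, t) ∈ Z) →
    Rch Z (i, a) (i, b) := by
  induction d with
  | zero =>
    intro a b hab h
    have : a = b := Fin.ext (by omega)
    subst this
    exact ⟨h a le_rfl le_rfl, h a le_rfl le_rfl, Reachable.refl _⟩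
  | succ d ih =>
    intro a b hab h
    have hb : b.val - 1 < n := by
      have := b.isLt
      omega
    have h1 := ih a ⟨b.val - 1, hb⟩ (by simp; omega) fun t ht1 ht2 => h t ht1 (by simp at ht2; omega)
    have hbZ : (i, b) ∈ Z := h b (by omega) le_rfl
    obtain ⟨hx, hy, h2⟩ := h1
    refine ⟨hx, hbZ, h2.trans (Adj.reachable ?_)⟩
    exact adj_hor (by simp; omega)

theorem ver_aux (Z : Set (Fin n × Fin n)) (i : Fin n) (d : ℕ) : ∀ a b : Fin n,
    a.val + d = b.val → (∀ t : Fin n, a.val ≤ t.val → t.val ≤ b.val → (t, i) ∈ Z) →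
    Rch Z (a, i) (b, i) := by
  induction d with
  | zero =>
    intro a b hab h
    have : a = b := Fin.ext (by omega)
    subst this
    exact ⟨h a le_rfl le_rfl, h a le_rfl le_rfl, Reachable.refl _⟩
  | succ d ih =>
    intro a b hab h
    have hb : b.val - 1 < n := by
      have := b.isLt
      omega
    have h1 := ih a ⟨b.val - 1, hb⟩ (by simp; omega) fun t ht1 ht2 => h t ht1 (by simp at ht2; omega)
    have hbZ : (b, i) ∈ Z := h b (by omega) le_rfl
    obtain ⟨hx, hy, h2⟩ := h1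
    refine ⟨hx, hbZ, h2.trans (Adj.reachable ?_)⟩
    exact adj_ver (by simp; omega)

/-- horizontal moves between columns of an interval `[u, v]` -/
theorem hor (Z : Set (Fin n × Fin n)) (i : Fin n) (u v : ℕ)
    (h : ∀ t : Fin n, u ≤ t.val → t.val ≤ v → (i, t) ∈ Z) (a b : Fin n) (ha : u ≤ a.val)
    (ha' : a.val ≤ v) (hb : u ≤ b.val) (hb' : b.val ≤ v) : Rch Z (i, a) (i, b) := by
  rcases le_total a.val b.val with hab | hab
  · exact hor_aux Z i (b.val - a.val) a b (by omega) fun t h1 h2 => h t (by omega) (by omega)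
  · exact (hor_aux Z i (a.val - b.val) b a (by omega) fun t h1 h2 => h t (by omega) (by omega)).symm

theorem ver (Z : Set (Fin n × Fin n)) (i : Fin n) (u v : ℕ)
    (h : ∀ t : Fin n, u ≤ t.val → t.val ≤ v → (t, i) ∈ Z) (a b : Fin n) (ha : u ≤ a.val)
    (ha' : a.val ≤ v) (hb : u ≤ b.val) (hb' : b.val ≤ v) : Rch Z (a, i) (b, i) := by
  rcases le_total a.val b.val with hab | hab
  · exact ver_aux Z i (b.val - a.val) a b (by omega) fun t h1 h2 => h t (by omega) (by omega)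
  · exact (ver_aux Z i (a.val - b.val) b a (by omega) fun t h1 h2 => h t (by omega) (by omega)).symm

theorem pick (T : Set (Fin n × Fin n)) (hT : T.ncard ≤ 2) (f : Fin n × Fin n → Fin n) (a : ℕ)
    (ha : a + 3 ≤ n) : ∃ c : Fin n, a ≤ c.val ∧ c.val < a + 3 ∧ ∀ x ∈ T, f x ≠ c := by
  classical
  by_contra hcon
  push Not at hcon
  obtain ⟨x0, h0, e0⟩ := hcon ⟨a, by omega⟩ (by simp) (by simp)
  obtain ⟨x1, h1, e1⟩ := hcon ⟨a + 1, by omega⟩ (by simp) (by simp)
  obtain ⟨x2, h2, e2⟩ := hcon ⟨a + 2, by omega⟩ (by simp) (by simp)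
  have d01 : x0 ≠ x1 := by
    rintro rfl
    rw [e0] at e1
    simp [Fin.ext_iff] at e1
  have d02 : x0 ≠ x2 := by
    rintro rfl
    rw [e0] at e2
    simp [Fin.ext_iff] at e2
  have d12 : x1 ≠ x2 := by
    rintro rfl
    rw [e1] at e2
    simp [Fin.ext_iff] at e2
  have h3 : ({x0, x1, x2} : Set (Fin n × Fin n)).ncard = 3 :=
    Set.ncard_eq_three.2 ⟨x0, x1, x2, d01, d02, d12, rfl⟩
  have h4 : ({x0, x1, x2} : Set (Fin n × Fin n)) ⊆ T := by
    intro x hx
    simp only [Set.mem_insert_iff, Set.mem_singleton_iff] at hx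
    rcases hx with rfl | rfl | rfl <;> assumption
  have := Set.ncard_le_ncard h4 (Set.toFinite T)
  omega

end

theorem geo : GeoStmt := by
  intro r hr k l hkl T hT hTk hTl i
  classical
  have hk1 : st r (k.val + 1) = st r k.val + (r + 2) := by
    unfold st; ring
  have hl1 : st r (l.val + 1) = st r l.val + (r + 2) := by
    unfold st; ring
  have hk0 : 3 ≤ st r k.val := by unfold st; omega
  have hl0 : 3 ≤ st r l.val := by unfold st; omega
  have hkn : st r (k.val + 1) + 3 ≤ RR r := by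
    have h2 : (k.val + 1) * (r + 2) ≤ 16 * (r + 2) := Nat.mul_le_mul_right _ k.isLt
    unfold RR st; omega
  have hln : st r (l.val + 1) + 3 ≤ RR r := by
    have h2 : (l.val + 1) * (r + 2) ≤ 16 * (r + 2) := Nat.mul_le_mul_right _ l.isLt
    unfold RR st; omega
  have hsep : st r (k.val + 1) ≤ st r l.val ∨ st r (l.val + 1) ≤ st r k.val := by
    have hne : k.val ≠ l.val := fun h => hkl (Fin.ext h)
    rcases lt_or_gt_of_ne hne with h | h
    · left
      have : (k.val + 1) * (r + 2) ≤ l.val * (r + 2) := Nat.mul_le_mul_right _ h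
      unfold st; omega
    · right
      have : (l.val + 1) * (r + 2) ≤ k.val * (r + 2) := Nat.mul_le_mul_right _ h
      unfold st; omega
  -- clear rows and columns
  let cr : Fin (RR r) → Prop := fun ρ => (∀ x ∈ T, x.1 ≠ ρ) ∧ (ρ.val < st r k.val ∨ st r (k.val + 1) ≤ ρ.val)
  let cc : Fin (RR r) → Prop := fun c => (∀ x ∈ T, x.2 ≠ c) ∧ (c.val < st r k.val ∨ st r (k.val + 1) ≤ c.val)
  let Z0 : Set (Fin (RR r) × Fin (RR r)) := {x | cr x.1 ∨ cc x.2}
  obtain ⟨ρ0, hρ0, hρ0', hρT⟩ := pick T hT Prod.fst 0 (by omega)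
  obtain ⟨c0, hc0, hc0', hcT⟩ := pick T hT Prod.snd 0 (by omega)
  have hρ : cr ρ0 := ⟨hρT, Or.inl (by omega)⟩
  have hc : cc c0 := ⟨hcT, Or.inl (by omega)⟩
  obtain ⟨ρ1, hρ1, hρ1', hρ1T⟩ := pick T hT Prod.fst (RR r - 3) (by omega)
  have hρe : cr ρ1 := ⟨hρ1T, Or.inr (by omega)⟩
  have hZT : Disjoint Z0 T := by
    rw [Set.disjoint_left]
    rintro x (h | h) hx
    · exact h.1 x hx rfl
    · exact h.1 x hx rfl
  have hZk : Disjoint Z0 (blk r k) := by
    rw [Set.disjoint_left]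
    rintro x (h | h) ⟨h1, h2, h3, h4⟩
    · have := h.2
      omega
    · have := h.2
      omega
  -- everything reaches the base point
  have base : ∀ Z : Set (Fin (RR r) × Fin (RR r)), Z0 ⊆ Z → ∀ x : Fin (RR r) × Fin (RR r), cr x.1 ∨ cc x.2 →
      Rch Z x (ρ0, c0) := by
    rintro Z hZ ⟨a, b⟩ (h | h)
    · refine (hor Z a 0 (RR r) (fun t _ _ => hZ (Or.inl h)) b c0 (Nat.zero_le _) b.isLt.le
        (Nat.zero_le _) c0.isLt.le).trans ?_
      exact ver Z c0 0 (RR r) (fun t _ _ => hZ (Or.inr hc)) a ρ0 (Nat.zero_le _) a.isLt.le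
        (Nat.zero_le _) ρ0.isLt.le
    · refine (ver Z b 0 (RR r) (fun t _ _ => hZ (Or.inr h)) a ρ0 (Nat.zero_le _) a.isLt.le
        (Nat.zero_le _) ρ0.isLt.le).trans ?_
      exact hor Z ρ0 0 (RR r) (fun t _ _ => hZ (Or.inl hρ)) b c0 (Nat.zero_le _) b.isLt.le
        (Nat.zero_le _) c0.isLt.le
  obtain ⟨ρl, hρl, hρl', hρlT⟩ := pick T hT Prod.fst (st r l.val) (by omega)
  have hρlc : cr ρl := ⟨hρlT, by omega⟩
  have bl : ∀ Z : Set (Fin (RR r) × Fin (RR r)), Z0 ⊆ Z → blk r l ⊆ Z → ∀ x ∈ blk r l,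
      Rch Z x (ρ0, c0) := by
    rintro Z hZ hZl ⟨a, b⟩ ⟨h1, h2, h3, h4⟩
    simp only at h1 h2 h3 h4
    refine (ver Z b (st r l.val) (st r (l.val + 1) - 1) (fun t ht1 ht2 => hZl ?_) a ρl h1 (by omega)
      hρl (by omega)).trans (base Z hZ _ (Or.inl hρlc))
    exact ⟨ht1, by simp only; omega, h3, h4⟩
  have hlk : Disjoint (blk r l) (blk r k) := by
    rw [Set.disjoint_left]
    rintro x ⟨h1, h2, h3, h4⟩ ⟨h1', h2', h3', h4'⟩
    omega
  -- the final step, given the segment `P`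
  have fin : ∀ P : Set (Fin (RR r) × Fin (RR r)), Disjoint P (blk r k) → Disjoint P T →
      (∀ Z : Set (Fin (RR r) × Fin (RR r)), Z0 ⊆ Z → P ⊆ Z → ∀ x ∈ P, Rch Z x (ρ0, c0)) →
      Touch (grid (RR r)) P (ring r k i) → ∃ Z : Set (Fin (RR r) × Fin (RR r)),
      ((grid (RR r)).induce Z).Connected ∧ blk r l ⊆ Z ∧ Disjoint Z (blk r k) ∧ Disjoint Z T ∧
      Touch (grid (RR r)) Z (ring r k i) := by
    intro P hP1 hP2 hP3 hP4
    refine ⟨Z0 ∪ blk r l ∪ P, ?_, ?_, ?_, ?_, ?_⟩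
    · have hb : (ρ0, c0) ∈ Z0 ∪ blk r l ∪ P := Or.inl (Or.inl (Or.inl hρ))
      have hall : ∀ x ∈ Z0 ∪ blk r l ∪ P, Rch (Z0 ∪ blk r l ∪ P) x (ρ0, c0) := by
        rintro x ((h | h) | h)
        · exact base _ (fun y hy => Or.inl (Or.inl hy)) x h
        · exact bl _ (fun y hy => Or.inl (Or.inl hy)) (fun y hy => Or.inl (Or.inr hy)) x h
        · exact hP3 _ (fun y hy => Or.inl (Or.inl hy)) (fun y hy => Or.inr hy) x h
      have : Nonempty (Z0 ∪ blk r l ∪ P : Set (Fin (RR r) × Fin (RR r))) := ⟨⟨_, hb⟩⟩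
      refine Connected.mk fun x y => ?_
      obtain ⟨_, _, h1⟩ := hall x.1 x.2
      obtain ⟨_, _, h2⟩ := hall y.1 y.2
      exact h1.trans h2.symm
    · exact fun y hy => Or.inl (Or.inr hy)
    · rw [Set.disjoint_union_left, Set.disjoint_union_left]
      exact ⟨⟨hZk, hlk⟩, hP1⟩
    · rw [Set.disjoint_union_left, Set.disjoint_union_left]
      exact ⟨⟨hZT, hTl.symm⟩, hP2⟩
    · obtain ⟨x, hx, y, hy, h⟩ := hP4
      exact ⟨x, Or.inr hx, y, hy, h⟩
  fin_cases i
  · -- up from the first row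
    obtain ⟨c, h1, h2, h3⟩ := pick T hT Prod.snd (st r k.val) (by omega)
    refine fin {x | x.2 = c ∧ x.1.val < st r k.val} ?_ ?_ ?_ ?_
    · rw [Set.disjoint_left]
      rintro x ⟨_, h⟩ ⟨h', _⟩
      omega
    · rw [Set.disjoint_left]
      rintro x ⟨h, _⟩ hx
      exact h3 x hx h
    · rintro Z hZ hPZ ⟨a, b⟩ ⟨h, h'⟩
      simp only at h h'
      subst h
      refine (ver Z b 0 (st r k.val - 1) (fun t _ ht => hPZ ⟨rfl, ?_⟩) a ρ0 (Nat.zero_le _)
        (by omega) (Nat.zero_le _) (by omega)).trans (base Z hZ _ (Or.inl hρ))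
      simp only
      omega
    · refine ⟨(⟨st r k.val - 1, by omega⟩, c), ⟨rfl, by simp only; omega⟩,
        (⟨st r k.val, by omega⟩, c), ⟨⟨le_rfl, by simp only; omega, h1, by simp only; omega⟩,
          Or.inl ⟨rfl, rfl⟩⟩, adj_ver (by simp only; omega)⟩
  · -- left from the first column
    obtain ⟨c, h1, h2, h3⟩ := pick T hT Prod.fst (st r k.val + 1) (by omega)
    refine fin {x | x.1 = c ∧ x.2.val < st r k.val} ?_ ?_ ?_ ?_
    · rw [Set.disjoint_left]
      rintro x ⟨_, h⟩ ⟨_, _, h', _⟩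
      omega
    · rw [Set.disjoint_left]
      rintro x ⟨h, _⟩ hx
      exact h3 x hx h
    · rintro Z hZ hPZ ⟨a, b⟩ ⟨h, h'⟩
      simp only at h h'
      subst h
      refine (hor Z a 0 (st r k.val - 1) (fun t _ ht => hPZ ⟨rfl, ?_⟩) b c0 (Nat.zero_le _)
        (by omega) (Nat.zero_le _) (by omega)).trans (base Z hZ _ (Or.inr hc))
      simp only
      omega
    · refine ⟨(c, ⟨st r k.val - 1, by omega⟩), ⟨rfl, by simp only; omega⟩,
        (c, ⟨st r k.val, by omega⟩), ⟨⟨by simp only; omega, by simp only; omega, le_rfl,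
          by simp only; omega⟩, Or.inr (Or.inl ⟨rfl, by simp only; omega, rfl⟩)⟩,
        adj_hor (by simp only; omega)⟩
  · -- down from the last row
    obtain ⟨c, h1, h2, h3⟩ := pick T hT Prod.snd (st r k.val + 1) (by omega)
    refine fin {x | x.2 = c ∧ st r (k.val + 1) ≤ x.1.val} ?_ ?_ ?_ ?_
    · rw [Set.disjoint_left]
      rintro x ⟨_, h⟩ ⟨_, h', _⟩
      omega
    · rw [Set.disjoint_left]
      rintro x ⟨h, _⟩ hx
      exact h3 x hx h
    · rintro Z hZ hPZ ⟨a, b⟩ ⟨h, h'⟩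
      simp only at h h'
      subst h
      refine (ver Z b (st r (k.val + 1)) (RR r) (fun t ht _ => hPZ ⟨rfl, ht⟩) a ρ1 h' a.isLt.le
        (by omega) ρ1.isLt.le).trans (base Z hZ _ (Or.inl hρe))
    · refine ⟨(⟨st r (k.val + 1), by omega⟩, c), ⟨rfl, le_rfl⟩,
        (⟨st r (k.val + 1) - 1, by omega⟩, c), ⟨⟨by simp only; omega, by simp only; omega,
          by simp only; omega, by simp only; omega⟩, Or.inr (Or.inr ⟨rfl, by simp only; omega,
            by simp only; omega, Or.inl (by simp only; omega)⟩)⟩,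
        (adj_ver (by simp only; omega)).symm⟩

end Vale.Agent.P235.H452
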